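import Vale.Agent.P211.Cert.Pair.Data.PairOuterH.Base

/-!
P211, data: the root `outerH` of the form across the gradient, generated from the exact search.
-/

namespace Vale.Agent.P211.Cert.Pair.PairOuterH

open Vale.Agent.P098.Check6 (Face St ofChunks reach)
open Vale.Agent.P098.Cert6.Kron (RootPar)

/-- A subtree. -/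
def tree0 : Check.Tree Check.Leaf :=
  .node 3
    (.node 1
    (.node 0
    (.node 1
    (.leaf (.psd ⟨⟨⟨1024, 0, 0⟩, ⟨326, 1, 0⟩, ⟨0, 0, 1⟩⟩, ⟨⟨1, 0, 0⟩, ⟨(-326), 1024, 0⟩, ⟨0, 0, 1024⟩⟩, 1024, ⟨3486, 1048576, 1⟩⟩))
    (.node 1
    (.leaf (.psd ⟨⟨⟨1024, 0, 0⟩, ⟨146, 1, 0⟩, ⟨0, 0, 1⟩⟩, ⟨⟨1, 0, 0⟩, ⟨(-146), 1024, 0⟩, ⟨0, 0, 1024⟩⟩, 1024, ⟨7, 4096, 1⟩⟩))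
    (.leaf (.psd ⟨⟨⟨1024, 0, 0⟩, ⟨(-18), 1, 0⟩, ⟨0, 0, 1⟩⟩, ⟨⟨1, 0, 0⟩, ⟨18, 1024, 0⟩, ⟨0, 0, 1024⟩⟩, 1024, ⟨5, 4096, 1⟩⟩))))
    (.node 3
    (.node 1
    (.node 3
    (.node 0
    (.node 1
    (.node 0
    (.node 3
    (.node 0
    (.node 0
    (.leaf (.psd ⟨⟨⟨1024, 0, 0⟩, ⟨495, 1, 0⟩, ⟨0, 0, 1⟩⟩, ⟨⟨1, 0, 0⟩, ⟨(-495), 1024, 0⟩, ⟨0, 0, 1024⟩⟩, 1024, ⟨5, 4096, 1⟩⟩))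
    (.leaf (.skip 6)))
    (.leaf (.skip 6)))
    (.node 0
    (.node 1
    (.node 0
    (.leaf (.psd ⟨⟨⟨1024, 0, 0⟩, ⟨447, 1, 0⟩, ⟨0, 0, 1⟩⟩, ⟨⟨1, 0, 0⟩, ⟨(-447), 1024, 0⟩, ⟨0, 0, 1024⟩⟩, 1024, ⟨6, 4096, 1⟩⟩))
    (.leaf (.skip 6)))
    (.node 0
    (.leaf (.psd ⟨⟨⟨1024, 0, 0⟩, ⟨387, 1, 0⟩, ⟨0, 0, 1⟩⟩, ⟨⟨1, 0, 0⟩, ⟨(-387), 1024, 0⟩, ⟨0, 0, 1024⟩⟩, 1024, ⟨7, 4096, 1⟩⟩))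
    (.leaf (.skip 6))))
    (.leaf (.skip 6))))
    (.leaf (.skip 6)))
    (.node 0
    (.node 0
    (.node 3
    (.node 0
    (.leaf (.psd ⟨⟨⟨1024, 0, 0⟩, ⟨352, 1, 0⟩, ⟨0, 0, 1⟩⟩, ⟨⟨1, 0, 0⟩, ⟨(-352), 1024, 0⟩, ⟨0, 0, 1024⟩⟩, 1024, ⟨7, 4096, 1⟩⟩))
    (.leaf (.skip 6)))
    (.node 1
    (.node 0
    (.leaf (.psd ⟨⟨⟨1024, 0, 0⟩, ⟨324, 1, 0⟩, ⟨0, 0, 1⟩⟩, ⟨⟨1, 0, 0⟩, ⟨(-324), 1024, 0⟩, ⟨0, 0, 1024⟩⟩, 1024, ⟨7, 4096, 1⟩⟩))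
    (.leaf (.skip 6)))
    (.node 0
    (.leaf (.psd ⟨⟨⟨1024, 0, 0⟩, ⟨257, 1, 0⟩, ⟨0, 0, 1⟩⟩, ⟨⟨1, 0, 0⟩, ⟨(-257), 1024, 0⟩, ⟨0, 0, 1024⟩⟩, 1024, ⟨8, 4096, 1⟩⟩))
    (.leaf (.skip 6)))))
    (.leaf (.skip 6)))
    (.leaf (.skip 6))))
    (.leaf (.skip 6)))
    (.node 0
    (.node 3
    (.node 0
    (.node 1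
    (.node 0
    (.leaf (.psd ⟨⟨⟨1024, 0, 0⟩, ⟨348, 1, 0⟩, ⟨0, 0, 1⟩⟩, ⟨⟨1, 0, 0⟩, ⟨(-348), 1024, 0⟩, ⟨0, 0, 1024⟩⟩, 1024, ⟨14, 4096, 1⟩⟩))
    (.leaf (.skip 6)))
    (.node 0
    (.node 1
    (.node 0
    (.leaf (.psd ⟨⟨⟨1024, 0, 0⟩, ⟨268, 1, 0⟩, ⟨0, 0, 1⟩⟩, ⟨⟨1, 0, 0⟩, ⟨(-268), 1024, 0⟩, ⟨0, 0, 1024⟩⟩, 1024, ⟨8, 4096, 1⟩⟩))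
    (.leaf (.skip 6)))
    (.node 0
    (.leaf (.psd ⟨⟨⟨1024, 0, 0⟩, ⟨211, 1, 0⟩, ⟨0, 0, 1⟩⟩, ⟨⟨1, 0, 0⟩, ⟨(-211), 1024, 0⟩, ⟨0, 0, 1024⟩⟩, 1024, ⟨8, 4096, 1⟩⟩))
    (.leaf (.skip 6))))
    (.leaf (.skip 6))))
    (.leaf (.skip 6)))
    (.node 1
    (.node 0
    (.leaf (.psd ⟨⟨⟨1024, 0, 0⟩, ⟨275, 1, 0⟩, ⟨0, 0, 1⟩⟩, ⟨⟨1, 0, 0⟩, ⟨(-275), 1024, 0⟩, ⟨0, 0, 1024⟩⟩, 1024, ⟨11, 4096, 1⟩⟩))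
    (.leaf (.skip 6)))
    (.node 0
    (.leaf (.psd ⟨⟨⟨1024, 0, 0⟩, ⟨189, 1, 0⟩, ⟨0, 0, 1⟩⟩, ⟨⟨1, 0, 0⟩, ⟨(-189), 1024, 0⟩, ⟨0, 0, 1024⟩⟩, 1024, ⟨13, 4096, 1⟩⟩))
    (.leaf (.skip 6)))))
    (.leaf (.skip 6))))
    (.node 0
    (.node 3
    (.node 1
    (.node 0
    (.node 0
    (.node 0
    (.node 1
    (.node 3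
    (.node 0
    (.leaf (.psd ⟨⟨⟨1024, 0, 0⟩, ⟨221, 1, 0⟩, ⟨0, 0, 1⟩⟩, ⟨⟨1, 0, 0⟩, ⟨(-221), 1024, 0⟩, ⟨0, 0, 1024⟩⟩, 1024, ⟨4, 4096, 1⟩⟩))
    (.node 3
    (.node 0
    (.leaf (.psd ⟨⟨⟨1024, 0, 0⟩, ⟨246, 1, 0⟩, ⟨0, 0, 1⟩⟩, ⟨⟨1, 0, 0⟩, ⟨(-246), 1024, 0⟩, ⟨0, 0, 1024⟩⟩, 1024, ⟨4, 4096, 1⟩⟩))
    (.node 3
    (.node 0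
    (.leaf (.psd ⟨⟨⟨1024, 0, 0⟩, ⟨261, 1, 0⟩, ⟨0, 0, 1⟩⟩, ⟨⟨1, 0, 0⟩, ⟨(-261), 1024, 0⟩, ⟨0, 0, 1024⟩⟩, 1024, ⟨4, 4096, 1⟩⟩))
    (.leaf (.skip 6)))
    (.leaf (.psd ⟨⟨⟨1024, 0, 0⟩, ⟨248, 1, 0⟩, ⟨0, 0, 1⟩⟩, ⟨⟨1, 0, 0⟩, ⟨(-248), 1024, 0⟩, ⟨0, 0, 1024⟩⟩, 1024, ⟨8, 4096, 1⟩⟩))))
    (.leaf (.psd ⟨⟨⟨1024, 0, 0⟩, ⟨224, 1, 0⟩, ⟨0, 0, 1⟩⟩, ⟨⟨1, 0, 0⟩, ⟨(-224), 1024, 0⟩, ⟨0, 0, 1024⟩⟩, 1024, ⟨8, 4096, 1⟩⟩))))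
    (.leaf (.psd ⟨⟨⟨1024, 0, 0⟩, ⟨185, 1, 0⟩, ⟨0, 0, 1⟩⟩, ⟨⟨1, 0, 0⟩, ⟨(-185), 1024, 0⟩, ⟨0, 0, 1024⟩⟩, 1024, ⟨8, 4096, 1⟩⟩)))
    (.node 0
    (.leaf (.psd ⟨⟨⟨1024, 0, 0⟩, ⟨111, 1, 0⟩, ⟨0, 0, 1⟩⟩, ⟨⟨1, 0, 0⟩, ⟨(-111), 1024, 0⟩, ⟨0, 0, 1024⟩⟩, 1024, ⟨4, 4096, 1⟩⟩))
    (.node 3
    (.node 0
    (.leaf (.psd ⟨⟨⟨1024, 0, 0⟩, ⟨140, 1, 0⟩, ⟨0, 0, 1⟩⟩, ⟨⟨1, 0, 0⟩, ⟨(-140), 1024, 0⟩, ⟨0, 0, 1024⟩⟩, 1024, ⟨4, 4096, 1⟩⟩))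
    (.node 3
    (.node 1
    (.node 3
    (.node 0
    (.leaf (.psd ⟨⟨⟨1024, 0, 0⟩, ⟨188, 1, 0⟩, ⟨0, 0, 1⟩⟩, ⟨⟨1, 0, 0⟩, ⟨(-188), 1024, 0⟩, ⟨0, 0, 1024⟩⟩, 1024, ⟨3, 4096, 1⟩⟩))
    (.leaf (.skip 6)))
    (.leaf (.psd ⟨⟨⟨1024, 0, 0⟩, ⟨179, 1, 0⟩, ⟨0, 0, 1⟩⟩, ⟨⟨1, 0, 0⟩, ⟨(-179), 1024, 0⟩, ⟨0, 0, 1024⟩⟩, 1024, ⟨7, 4096, 1⟩⟩)))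
    (.leaf (.psd ⟨⟨⟨1024, 0, 0⟩, ⟨135, 1, 0⟩, ⟨0, 0, 1⟩⟩, ⟨⟨1, 0, 0⟩, ⟨(-135), 1024, 0⟩, ⟨0, 0, 1024⟩⟩, 1024, ⟨4, 4096, 1⟩⟩)))
    (.leaf (.psd ⟨⟨⟨1024, 0, 0⟩, ⟨142, 1, 0⟩, ⟨0, 0, 1⟩⟩, ⟨⟨1, 0, 0⟩, ⟨(-142), 1024, 0⟩, ⟨0, 0, 1024⟩⟩, 1024, ⟨7, 4096, 1⟩⟩))))
    (.leaf (.psd ⟨⟨⟨1024, 0, 0⟩, ⟨113, 1, 0⟩, ⟨0, 0, 1⟩⟩, ⟨⟨1, 0, 0⟩, ⟨(-113), 1024, 0⟩, ⟨0, 0, 1024⟩⟩, 1024, ⟨7, 4096, 1⟩⟩)))))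
    (.leaf (.skip 6)))
    (.leaf (.skip 6)))
    (.leaf (.skip 6)))
    (.node 0
    (.node 0
    (.node 0
    (.leaf (.psd ⟨⟨⟨1024, 0, 0⟩, ⟨(-6), 1, 0⟩, ⟨0, 0, 1⟩⟩, ⟨⟨1, 0, 0⟩, ⟨6, 1024, 0⟩, ⟨0, 0, 1024⟩⟩, 1024, ⟨4, 4096, 1⟩⟩))
    (.leaf (.skip 6)))
    (.leaf (.skip 6)))
    (.leaf (.skip 6))))
    (.node 1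
    (.node 3
    (.node 0
    (.node 0
    (.node 1
    (.node 0
    (.leaf (.psd ⟨⟨⟨1024, 0, 0⟩, ⟨150, 1, 0⟩, ⟨0, 0, 1⟩⟩, ⟨⟨1, 0, 0⟩, ⟨(-150), 1024, 0⟩, ⟨0, 0, 1024⟩⟩, 1024, ⟨8, 4096, 1⟩⟩))
    (.leaf (.skip 6)))
    (.leaf (.psd ⟨⟨⟨1024, 0, 0⟩, ⟨91, 1, 0⟩, ⟨0, 0, 1⟩⟩, ⟨⟨1, 0, 0⟩, ⟨(-91), 1024, 0⟩, ⟨0, 0, 1024⟩⟩, 1024, ⟨17, 4096, 1⟩⟩)))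
    (.leaf (.skip 6)))
    (.leaf (.skip 6)))
    (.node 3
    (.node 0
    (.leaf (.psd ⟨⟨⟨1024, 0, 0⟩, ⟨107, 1, 0⟩, ⟨0, 0, 1⟩⟩, ⟨⟨1, 0, 0⟩, ⟨(-107), 1024, 0⟩, ⟨0, 0, 1024⟩⟩, 1024, ⟨14, 4096, 1⟩⟩))
    (.leaf (.skip 6)))
    (.leaf (.psd ⟨⟨⟨1024, 0, 0⟩, ⟨92, 1, 0⟩, ⟨0, 0, 1⟩⟩, ⟨⟨1, 0, 0⟩, ⟨(-92), 1024, 0⟩, ⟨0, 0, 1024⟩⟩, 1024, ⟨8, 4096, 1⟩⟩))))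
    (.node 0
    (.node 3
    (.node 0
    (.leaf (.psd ⟨⟨⟨1024, 0, 0⟩, ⟨1, 1, 0⟩, ⟨0, 0, 1⟩⟩, ⟨⟨1, 0, 0⟩, ⟨(-1), 1024, 0⟩, ⟨0, 0, 1024⟩⟩, 1024, ⟨7, 4096, 1⟩⟩))
    (.leaf (.skip 6)))
    (.leaf (.psd ⟨⟨⟨1024, 0, 0⟩, ⟨14, 1, 0⟩, ⟨0, 0, 1⟩⟩, ⟨⟨1, 0, 0⟩, ⟨(-14), 1024, 0⟩, ⟨0, 0, 1024⟩⟩, 1024, ⟨6, 4096, 1⟩⟩)))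
    (.leaf (.skip 6)))))
    (.leaf (.skip 6))))
    (.node 1
    (.leaf (.psd ⟨⟨⟨1024, 0, 0⟩, ⟨1, 1, 0⟩, ⟨0, 0, 1⟩⟩, ⟨⟨1, 0, 0⟩, ⟨(-1), 1024, 0⟩, ⟨0, 0, 1024⟩⟩, 1024, ⟨6, 4096, 1⟩⟩))
    (.node 0
    (.leaf (.psd ⟨⟨⟨1024, 0, 0⟩, ⟨20, 1, 0⟩, ⟨0, 0, 1⟩⟩, ⟨⟨1, 0, 0⟩, ⟨(-20), 1024, 0⟩, ⟨0, 0, 1024⟩⟩, 1024, ⟨6, 4096, 1⟩⟩))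
    (.leaf (.skip 6))))))
    (.node 0
    (.node 1
    (.leaf (.psd ⟨⟨⟨1, 0, 0⟩, ⟨0, 1, 0⟩, ⟨0, 0, 1⟩⟩, ⟨⟨1, 0, 0⟩, ⟨0, 1, 0⟩, ⟨0, 0, 1⟩⟩, 1, ⟨1797, 4096, 1⟩⟩))
    (.leaf (.psd ⟨⟨⟨1024, 0, 0⟩, ⟨(-1458), 1, 0⟩, ⟨0, 0, 1⟩⟩, ⟨⟨1, 0, 0⟩, ⟨1458, 1024, 0⟩, ⟨0, 0, 1024⟩⟩, 1024, ⟨360, 1048576, 1⟩⟩)))
    (.node 1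
    (.node 3
    (.node 0
    (.node 3
    (.node 0
    (.node 1
    (.node 0
    (.node 1
    (.node 0
    (.leaf (.psd ⟨⟨⟨1024, 0, 0⟩, ⟨(-146), 1, 0⟩, ⟨0, 0, 1⟩⟩, ⟨⟨1, 0, 0⟩, ⟨146, 1024, 0⟩, ⟨0, 0, 1024⟩⟩, 1024, ⟨2, 4096, 1⟩⟩))
    (.leaf (.skip 6)))
    (.leaf (.psd ⟨⟨⟨1024, 0, 0⟩, ⟨(-185), 1, 0⟩, ⟨0, 0, 1⟩⟩, ⟨⟨1, 0, 0⟩, ⟨185, 1024, 0⟩, ⟨0, 0, 1024⟩⟩, 1024, ⟨2, 4096, 1⟩⟩)))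
    (.leaf (.skip 6)))
    (.leaf (.skip 6)))
    (.leaf (.skip 6)))
    (.node 1
    (.node 0
    (.leaf (.psd ⟨⟨⟨1024, 0, 0⟩, ⟨(-52), 1, 0⟩, ⟨0, 0, 1⟩⟩, ⟨⟨1, 0, 0⟩, ⟨52, 1024, 0⟩, ⟨0, 0, 1024⟩⟩, 1024, ⟨3, 4096, 1⟩⟩))
    (.leaf (.skip 6)))
    (.leaf (.skip 6))))
    (.leaf (.skip 6)))
    (.node 0
    (.node 1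
    (.leaf (.psd ⟨⟨⟨1024, 0, 0⟩, ⟨50, 1, 0⟩, ⟨0, 0, 1⟩⟩, ⟨⟨1, 0, 0⟩, ⟨(-50), 1024, 0⟩, ⟨0, 0, 1024⟩⟩, 1024, ⟨2, 4096, 1⟩⟩))
    (.leaf (.skip 6)))
    (.leaf (.skip 6))))
    (.leaf (.skip 6)))))
    (.node 1
    (.node 0
    (.node 1
    (.leaf (.psd ⟨⟨⟨1024, 0, 0⟩, ⟨333, 1, 0⟩, ⟨0, 0, 1⟩⟩, ⟨⟨1, 0, 0⟩, ⟨(-333), 1024, 0⟩, ⟨0, 0, 1024⟩⟩, 1024, ⟨10, 4096, 1⟩⟩))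
    (.leaf (.psd ⟨⟨⟨1024, 0, 0⟩, ⟨282, 1, 0⟩, ⟨0, 0, 1⟩⟩, ⟨⟨1, 0, 0⟩, ⟨(-282), 1024, 0⟩, ⟨0, 0, 1024⟩⟩, 1024, ⟨10, 4096, 1⟩⟩)))
    (.node 1
    (.node 0
    (.node 0
    (.leaf (.psd ⟨⟨⟨1024, 0, 0⟩, ⟨41, 1, 0⟩, ⟨0, 0, 1⟩⟩, ⟨⟨1, 0, 0⟩, ⟨(-41), 1024, 0⟩, ⟨0, 0, 1024⟩⟩, 1024, ⟨13, 4096, 1⟩⟩))
    (.leaf (.skip 6)))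
    (.leaf (.skip 6)))
    (.node 0
    (.node 0
    (.node 1
    (.node 3
    (.leaf (.psd ⟨⟨⟨1024, 0, 0⟩, ⟨33, 1, 0⟩, ⟨0, 0, 1⟩⟩, ⟨⟨1, 0, 0⟩, ⟨(-33), 1024, 0⟩, ⟨0, 0, 1024⟩⟩, 1024, ⟨13, 4096, 1⟩⟩))
    (.node 0
    (.node 1
    (.leaf (.psd ⟨⟨⟨1024, 0, 0⟩, ⟨91, 1, 0⟩, ⟨0, 0, 1⟩⟩, ⟨⟨1, 0, 0⟩, ⟨(-91), 1024, 0⟩, ⟨0, 0, 1024⟩⟩, 1024, ⟨12, 4096, 1⟩⟩))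
    (.node 0
    (.leaf (.psd ⟨⟨⟨1024, 0, 0⟩, ⟨121, 1, 0⟩, ⟨0, 0, 1⟩⟩, ⟨⟨1, 0, 0⟩, ⟨(-121), 1024, 0⟩, ⟨0, 0, 1024⟩⟩, 1024, ⟨13, 4096, 1⟩⟩))
    (.leaf (.skip 6))))
    (.leaf (.skip 6))))
    (.node 3
    (.leaf (.psd ⟨⟨⟨1024, 0, 0⟩, ⟨31, 1, 0⟩, ⟨0, 0, 1⟩⟩, ⟨⟨1, 0, 0⟩, ⟨(-31), 1024, 0⟩, ⟨0, 0, 1024⟩⟩, 1024, ⟨12, 4096, 1⟩⟩))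
    (.node 0
    (.node 0
    (.leaf (.psd ⟨⟨⟨1024, 0, 0⟩, ⟨138, 1, 0⟩, ⟨0, 0, 1⟩⟩, ⟨⟨1, 0, 0⟩, ⟨(-138), 1024, 0⟩, ⟨0, 0, 1024⟩⟩, 1024, ⟨21, 4096, 1⟩⟩))
    (.leaf (.skip 6)))
    (.leaf (.skip 6)))))
    (.leaf (.skip 6)))
    (.leaf (.skip 6)))))
    (.node 0
    (.node 1
    (.node 0
    (.leaf (.psd ⟨⟨⟨1024, 0, 0⟩, ⟨(-54), 1, 0⟩, ⟨0, 0, 1⟩⟩, ⟨⟨1, 0, 0⟩, ⟨54, 1024, 0⟩, ⟨0, 0, 1024⟩⟩, 1024, ⟨2, 4096, 1⟩⟩))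
    (.leaf (.psd ⟨⟨⟨1024, 0, 0⟩, ⟨19, 1, 0⟩, ⟨0, 0, 1⟩⟩, ⟨⟨1, 0, 0⟩, ⟨(-19), 1024, 0⟩, ⟨0, 0, 1024⟩⟩, 1024, ⟨5, 4096, 1⟩⟩)))
    (.node 0
    (.leaf (.psd ⟨⟨⟨1024, 0, 0⟩, ⟨(-794), 1, 0⟩, ⟨0, 0, 1⟩⟩, ⟨⟨1, 0, 0⟩, ⟨794, 1024, 0⟩, ⟨0, 0, 1024⟩⟩, 1024, ⟨2, 4096, 1⟩⟩))
    (.leaf (.psd ⟨⟨⟨1024, 0, 0⟩, ⟨(-693), 1, 0⟩, ⟨0, 0, 1⟩⟩, ⟨⟨1, 0, 0⟩, ⟨693, 1024, 0⟩, ⟨0, 0, 1024⟩⟩, 1024, ⟨3, 4096, 1⟩⟩))))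
    (.node 1
    (.node 0
    (.node 3
    (.node 1
    (.leaf (.psd ⟨⟨⟨1024, 0, 0⟩, ⟨43, 1, 0⟩, ⟨0, 0, 1⟩⟩, ⟨⟨1, 0, 0⟩, ⟨(-43), 1024, 0⟩, ⟨0, 0, 1024⟩⟩, 1024, ⟨4, 4096, 1⟩⟩))
    (.leaf (.skip 6)))
    (.node 0
    (.node 1
    (.node 0
    (.node 0
    (.leaf (.psd ⟨⟨⟨1024, 0, 0⟩, ⟨138, 1, 0⟩, ⟨0, 0, 1⟩⟩, ⟨⟨1, 0, 0⟩, ⟨(-138), 1024, 0⟩, ⟨0, 0, 1024⟩⟩, 1024, ⟨18, 4096, 1⟩⟩))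
    (.leaf (.skip 6)))
    (.leaf (.skip 6)))
    (.leaf (.skip 6)))
    (.leaf (.skip 6))))
    (.leaf (.skip 6)))
    (.leaf (.skip 6)))))

theorem chunk0 : Check.Good ⟨false, false, false⟩ cfg (reach cfg base [(1, false), (3, false)]) :=
  Check.check_sound tree0 (by decide +kernel)

/-- A subtree. -/
def tree1 : Check.Tree Check.Leaf :=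
  .node 3
    (.node 1
    (.node 0
    (.node 3
    (.node 0
    (.node 1
    (.leaf (.psd ⟨⟨⟨1024, 0, 0⟩, ⟨(-3300), 1, 0⟩, ⟨0, 0, 1⟩⟩, ⟨⟨1, 0, 0⟩, ⟨3300, 1024, 0⟩, ⟨0, 0, 1024⟩⟩, 1024, ⟨313, 1048576, 1⟩⟩))
    (.node 3
    (.node 3
    (.node 1
    (.leaf (.psd ⟨⟨⟨1024, 0, 0⟩, ⟨(-2410), 1, 0⟩, ⟨0, 0, 1⟩⟩, ⟨⟨1, 0, 0⟩, ⟨2410, 1024, 0⟩, ⟨0, 0, 1024⟩⟩, 1024, ⟨1, 4096, 1⟩⟩))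
    (.node 0
    (.leaf (.psd ⟨⟨⟨1024, 0, 0⟩, ⟨(-2331), 1, 0⟩, ⟨0, 0, 1⟩⟩, ⟨⟨1, 0, 0⟩, ⟨2331, 1024, 0⟩, ⟨0, 0, 1024⟩⟩, 1024, ⟨1, 4096, 1⟩⟩))
    (.leaf (.psd ⟨⟨⟨1024, 0, 0⟩, ⟨(-251), 1, 0⟩, ⟨0, 0, 1⟩⟩, ⟨⟨1, 0, 0⟩, ⟨251, 1024, 0⟩, ⟨0, 0, 1024⟩⟩, 1024, ⟨386, 1048576, 1⟩⟩))))
    (.node 1
    (.leaf (.psd ⟨⟨⟨1024, 0, 0⟩, ⟨(-2875), 1, 0⟩, ⟨0, 0, 1⟩⟩, ⟨⟨1, 0, 0⟩, ⟨2875, 1024, 0⟩, ⟨0, 0, 1024⟩⟩, 1024, ⟨1, 4096, 1⟩⟩))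
    (.node 0
    (.leaf (.psd ⟨⟨⟨1024, 0, 0⟩, ⟨(-2359), 1, 0⟩, ⟨0, 0, 1⟩⟩, ⟨⟨1, 0, 0⟩, ⟨2359, 1024, 0⟩, ⟨0, 0, 1024⟩⟩, 1024, ⟨461, 1048576, 1⟩⟩))
    (.leaf (.psd ⟨⟨⟨1, (-150), 0⟩, ⟨0, 1024, 0⟩, ⟨0, 0, 1⟩⟩, ⟨⟨1024, 150, 0⟩, ⟨0, 1, 0⟩, ⟨0, 0, 1024⟩⟩, 1024, ⟨4096, 6, 1⟩⟩)))))
    (.node 1
    (.node 3
    (.leaf (.psd ⟨⟨⟨1024, 0, 0⟩, ⟨(-2526), 1, 0⟩, ⟨0, 0, 1⟩⟩, ⟨⟨1, 0, 0⟩, ⟨2526, 1024, 0⟩, ⟨0, 0, 1024⟩⟩, 1024, ⟨403, 1048576, 1⟩⟩))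
    (.leaf (.psd ⟨⟨⟨1024, 0, 0⟩, ⟨(-2025), 1, 0⟩, ⟨0, 0, 1⟩⟩, ⟨⟨1, 0, 0⟩, ⟨2025, 1024, 0⟩, ⟨0, 0, 1024⟩⟩, 1024, ⟨2, 4096, 1⟩⟩)))
    (.node 0
    (.node 3
    (.node 1
    (.leaf (.psd ⟨⟨⟨1024, 0, 0⟩, ⟨(-2098), 1, 0⟩, ⟨0, 0, 1⟩⟩, ⟨⟨1, 0, 0⟩, ⟨2098, 1024, 0⟩, ⟨0, 0, 1024⟩⟩, 1024, ⟨2, 4096, 1⟩⟩))
    (.leaf (.psd ⟨⟨⟨1024, 0, 0⟩, ⟨(-1457), 1, 0⟩, ⟨0, 0, 1⟩⟩, ⟨⟨1, 0, 0⟩, ⟨1457, 1024, 0⟩, ⟨0, 0, 1024⟩⟩, 1024, ⟨3, 4096, 1⟩⟩)))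
    (.node 1
    (.leaf (.psd ⟨⟨⟨1024, 0, 0⟩, ⟨(-1585), 1, 0⟩, ⟨0, 0, 1⟩⟩, ⟨⟨1, 0, 0⟩, ⟨1585, 1024, 0⟩, ⟨0, 0, 1024⟩⟩, 1024, ⟨3, 4096, 1⟩⟩))
    (.leaf (.psd ⟨⟨⟨1024, 0, 0⟩, ⟨(-1092), 1, 0⟩, ⟨0, 0, 1⟩⟩, ⟨⟨1, 0, 0⟩, ⟨1092, 1024, 0⟩, ⟨0, 0, 1024⟩⟩, 1024, ⟨1179, 1048576, 1⟩⟩))))
    (.node 1
    (.leaf (.psd ⟨⟨⟨1024, 0, 0⟩, ⟨(-1024), 1, 0⟩, ⟨0, 0, 1⟩⟩, ⟨⟨1, 0, 0⟩, ⟨1024, 1024, 0⟩, ⟨0, 0, 1024⟩⟩, 1024, ⟨855, 1048576, 1⟩⟩))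
    (.node 3
    (.leaf (.psd ⟨⟨⟨1024, 0, 0⟩, ⟨(-608), 1, 0⟩, ⟨0, 0, 1⟩⟩, ⟨⟨1, 0, 0⟩, ⟨608, 1024, 0⟩, ⟨0, 0, 1024⟩⟩, 1024, ⟨4, 4096, 1⟩⟩))
    (.leaf (.psd ⟨⟨⟨1024, 0, 0⟩, ⟨(-522), 1, 0⟩, ⟨0, 0, 1⟩⟩, ⟨⟨1, 0, 0⟩, ⟨522, 1024, 0⟩, ⟨0, 0, 1024⟩⟩, 1024, ⟨1529, 1048576, 1⟩⟩))))))))
    (.node 1
    (.leaf (.psd ⟨⟨⟨1024, 0, 0⟩, ⟨(-1014), 1, 0⟩, ⟨0, 0, 1⟩⟩, ⟨⟨1, 0, 0⟩, ⟨1014, 1024, 0⟩, ⟨0, 0, 1024⟩⟩, 1024, ⟨1, 4096, 1⟩⟩))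
    (.node 1
    (.node 0
    (.leaf (.psd ⟨⟨⟨1024, 0, 0⟩, ⟨(-690), 1, 0⟩, ⟨0, 0, 1⟩⟩, ⟨⟨1, 0, 0⟩, ⟨690, 1024, 0⟩, ⟨0, 0, 1024⟩⟩, 1024, ⟨405, 1048576, 1⟩⟩))
    (.leaf (.skip 6)))
    (.leaf (.skip 6)))))
    (.node 0
    (.node 1
    (.node 3
    (.leaf (.psd ⟨⟨⟨1024, 0, 0⟩, ⟨(-2351), 1, 0⟩, ⟨0, 0, 1⟩⟩, ⟨⟨1, 0, 0⟩, ⟨2351, 1024, 0⟩, ⟨0, 0, 1024⟩⟩, 1024, ⟨2, 4096, 1⟩⟩))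
    (.leaf (.psd ⟨⟨⟨1024, 0, 0⟩, ⟨(-1671), 1, 0⟩, ⟨0, 0, 1⟩⟩, ⟨⟨1, 0, 0⟩, ⟨1671, 1024, 0⟩, ⟨0, 0, 1024⟩⟩, 1024, ⟨3, 4096, 1⟩⟩)))
    (.node 1
    (.node 3
    (.node 0
    (.leaf (.psd ⟨⟨⟨1024, 0, 0⟩, ⟨(-1620), 1, 0⟩, ⟨0, 0, 1⟩⟩, ⟨⟨1, 0, 0⟩, ⟨1620, 1024, 0⟩, ⟨0, 0, 1024⟩⟩, 1024, ⟨753, 1048576, 1⟩⟩))
    (.leaf (.psd ⟨⟨⟨1024, 0, 0⟩, ⟨(-1217), 1, 0⟩, ⟨0, 0, 1⟩⟩, ⟨⟨1, 0, 0⟩, ⟨1217, 1024, 0⟩, ⟨0, 0, 1024⟩⟩, 1024, ⟨943, 1048576, 1⟩⟩)))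
    (.leaf (.psd ⟨⟨⟨1024, 0, 0⟩, ⟨(-997), 1, 0⟩, ⟨0, 0, 1⟩⟩, ⟨⟨1, 0, 0⟩, ⟨997, 1024, 0⟩, ⟨0, 0, 1024⟩⟩, 1024, ⟨5, 4096, 1⟩⟩)))
    (.node 0
    (.node 3
    (.node 1
    (.leaf (.psd ⟨⟨⟨1024, 0, 0⟩, ⟨(-1088), 1, 0⟩, ⟨0, 0, 1⟩⟩, ⟨⟨1, 0, 0⟩, ⟨1088, 1024, 0⟩, ⟨0, 0, 1024⟩⟩, 1024, ⟨4, 4096, 1⟩⟩))
    (.node 0
    (.leaf (.psd ⟨⟨⟨1024, 0, 0⟩, ⟨(-837), 1, 0⟩, ⟨0, 0, 1⟩⟩, ⟨⟨1, 0, 0⟩, ⟨837, 1024, 0⟩, ⟨0, 0, 1024⟩⟩, 1024, ⟨5, 4096, 1⟩⟩))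
    (.leaf (.psd ⟨⟨⟨1024, 0, 0⟩, ⟨(-660), 1, 0⟩, ⟨0, 0, 1⟩⟩, ⟨⟨1, 0, 0⟩, ⟨660, 1024, 0⟩, ⟨0, 0, 1024⟩⟩, 1024, ⟨7, 4096, 1⟩⟩))))
    (.node 1
    (.leaf (.psd ⟨⟨⟨1024, 0, 0⟩, ⟨(-754), 1, 0⟩, ⟨0, 0, 1⟩⟩, ⟨⟨1, 0, 0⟩, ⟨754, 1024, 0⟩, ⟨0, 0, 1024⟩⟩, 1024, ⟨6, 4096, 1⟩⟩))
    (.leaf (.psd ⟨⟨⟨1024, 0, 0⟩, ⟨(-523), 1, 0⟩, ⟨0, 0, 1⟩⟩, ⟨⟨1, 0, 0⟩, ⟨523, 1024, 0⟩, ⟨0, 0, 1024⟩⟩, 1024, ⟨2511, 1048576, 1⟩⟩))))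
    (.node 1
    (.node 3
    (.leaf (.psd ⟨⟨⟨1024, 0, 0⟩, ⟨(-716), 1, 0⟩, ⟨0, 0, 1⟩⟩, ⟨⟨1, 0, 0⟩, ⟨716, 1024, 0⟩, ⟨0, 0, 1024⟩⟩, 1024, ⟨1515, 1048576, 1⟩⟩))
    (.leaf (.psd ⟨⟨⟨1024, 0, 0⟩, ⟨(-519), 1, 0⟩, ⟨0, 0, 1⟩⟩, ⟨⟨1, 0, 0⟩, ⟨519, 1024, 0⟩, ⟨0, 0, 1024⟩⟩, 1024, ⟨9, 4096, 1⟩⟩)))
    (.node 3
    (.node 0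
    (.leaf (.psd ⟨⟨⟨1024, 0, 0⟩, ⟨(-482), 1, 0⟩, ⟨0, 0, 1⟩⟩, ⟨⟨1, 0, 0⟩, ⟨482, 1024, 0⟩, ⟨0, 0, 1024⟩⟩, 1024, ⟨2297, 1048576, 1⟩⟩))
    (.leaf (.skip 6)))
    (.leaf (.psd ⟨⟨⟨1, (-1777), 0⟩, ⟨0, 1024, 0⟩, ⟨0, 0, 1⟩⟩, ⟨⟨1024, 1777, 0⟩, ⟨0, 1, 0⟩, ⟨0, 0, 1024⟩⟩, 1024, ⟨1048576, 647, 1⟩⟩)))))))
    (.node 1
    (.leaf (.psd ⟨⟨⟨1, (-278), 0⟩, ⟨0, 1024, 0⟩, ⟨0, 0, 1⟩⟩, ⟨⟨1024, 278, 0⟩, ⟨0, 1, 0⟩, ⟨0, 0, 1024⟩⟩, 1024, ⟨1048576, 1977, 1⟩⟩))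
    (.node 1
    (.node 0
    (.node 3
    (.leaf (.psd ⟨⟨⟨1024, 0, 0⟩, ⟨(-761), 1, 0⟩, ⟨0, 0, 1⟩⟩, ⟨⟨1, 0, 0⟩, ⟨761, 1024, 0⟩, ⟨0, 0, 1024⟩⟩, 1024, ⟨4, 4096, 1⟩⟩))
    (.leaf (.psd ⟨⟨⟨1024, 0, 0⟩, ⟨(-606), 1, 0⟩, ⟨0, 0, 1⟩⟩, ⟨⟨1, 0, 0⟩, ⟨606, 1024, 0⟩, ⟨0, 0, 1024⟩⟩, 1024, ⟨6, 4096, 1⟩⟩)))
    (.leaf (.skip 6)))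
    (.leaf (.skip 6))))))
    (.leaf (.skip 6)))
    (.node 3
    (.node 1
    (.node 0
    (.node 3
    (.node 0
    (.node 1
    (.node 0
    (.node 3
    (.node 1
    (.node 3
    (.node 0
    (.leaf (.psd ⟨⟨⟨1024, 0, 0⟩, ⟨(-1189), 1, 0⟩, ⟨0, 0, 1⟩⟩, ⟨⟨1, 0, 0⟩, ⟨1189, 1024, 0⟩, ⟨0, 0, 1024⟩⟩, 1024, ⟨1, 4096, 1⟩⟩))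
    (.node 1
    (.leaf (.psd ⟨⟨⟨1024, 0, 0⟩, ⟨(-231), 1, 0⟩, ⟨0, 0, 1⟩⟩, ⟨⟨1, 0, 0⟩, ⟨231, 1024, 0⟩, ⟨0, 0, 1024⟩⟩, 1024, ⟨1, 4096, 1⟩⟩))
    (.node 0
    (.node 3
    (.node 1
    (.leaf (.psd ⟨⟨⟨1024, 0, 0⟩, ⟨218, 1, 0⟩, ⟨0, 0, 1⟩⟩, ⟨⟨1, 0, 0⟩, ⟨(-218), 1024, 0⟩, ⟨0, 0, 1024⟩⟩, 1024, ⟨1, 4096, 1⟩⟩))
    (.leaf (.skip 6)))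
    (.leaf (.psd ⟨⟨⟨1024, 0, 0⟩, ⟨(-184), 1, 0⟩, ⟨0, 0, 1⟩⟩, ⟨⟨1, 0, 0⟩, ⟨184, 1024, 0⟩, ⟨0, 0, 1024⟩⟩, 1024, ⟨3, 4096, 1⟩⟩)))
    (.leaf (.skip 6)))))
    (.node 0
    (.leaf (.psd ⟨⟨⟨1024, 0, 0⟩, ⟨(-1759), 1, 0⟩, ⟨0, 0, 1⟩⟩, ⟨⟨1, 0, 0⟩, ⟨1759, 1024, 0⟩, ⟨0, 0, 1024⟩⟩, 1024, ⟨2, 4096, 1⟩⟩))
    (.node 1
    (.leaf (.psd ⟨⟨⟨1024, 0, 0⟩, ⟨(-895), 1, 0⟩, ⟨0, 0, 1⟩⟩, ⟨⟨1, 0, 0⟩, ⟨895, 1024, 0⟩, ⟨0, 0, 1024⟩⟩, 1024, ⟨1, 4096, 1⟩⟩))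
    (.node 0
    (.leaf (.psd ⟨⟨⟨1024, 0, 0⟩, ⟨(-684), 1, 0⟩, ⟨0, 0, 1⟩⟩, ⟨⟨1, 0, 0⟩, ⟨684, 1024, 0⟩, ⟨0, 0, 1024⟩⟩, 1024, ⟨2, 4096, 1⟩⟩))
    (.leaf (.skip 6))))))
    (.node 0
    (.node 3
    (.node 1
    (.node 3
    (.node 0
    (.node 1
    (.leaf (.psd ⟨⟨⟨1024, 0, 0⟩, ⟨(-364), 1, 0⟩, ⟨0, 0, 1⟩⟩, ⟨⟨1, 0, 0⟩, ⟨364, 1024, 0⟩, ⟨0, 0, 1024⟩⟩, 1024, ⟨1, 4096, 1⟩⟩))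
    (.node 0
    (.leaf (.psd ⟨⟨⟨1024, 0, 0⟩, ⟨(-248), 1, 0⟩, ⟨0, 0, 1⟩⟩, ⟨⟨1, 0, 0⟩, ⟨248, 1024, 0⟩, ⟨0, 0, 1024⟩⟩, 1024, ⟨1, 4096, 1⟩⟩))
    (.leaf (.skip 6))))
    (.leaf (.skip 6)))
    (.node 0
    (.leaf (.psd ⟨⟨⟨1024, 0, 0⟩, ⟨(-885), 1, 0⟩, ⟨0, 0, 1⟩⟩, ⟨⟨1, 0, 0⟩, ⟨885, 1024, 0⟩, ⟨0, 0, 1024⟩⟩, 1024, ⟨2, 4096, 1⟩⟩))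
    (.leaf (.skip 6))))
    (.leaf (.skip 6)))
    (.node 1
    (.node 0
    (.leaf (.psd ⟨⟨⟨1024, 0, 0⟩, ⟨(-1184), 1, 0⟩, ⟨0, 0, 1⟩⟩, ⟨⟨1, 0, 0⟩, ⟨1184, 1024, 0⟩, ⟨0, 0, 1024⟩⟩, 1024, ⟨3, 4096, 1⟩⟩))
    (.leaf (.skip 6)))
    (.leaf (.skip 6))))
    (.leaf (.skip 6))))
    (.node 1
    (.node 0
    (.node 3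
    (.leaf (.psd ⟨⟨⟨1024, 0, 0⟩, ⟨(-1630), 1, 0⟩, ⟨0, 0, 1⟩⟩, ⟨⟨1, 0, 0⟩, ⟨1630, 1024, 0⟩, ⟨0, 0, 1024⟩⟩, 1024, ⟨749, 1048576, 1⟩⟩))
    (.leaf (.psd ⟨⟨⟨1024, 0, 0⟩, ⟨(-1356), 1, 0⟩, ⟨0, 0, 1⟩⟩, ⟨⟨1, 0, 0⟩, ⟨1356, 1024, 0⟩, ⟨0, 0, 1024⟩⟩, 1024, ⟨951, 1048576, 1⟩⟩)))
    (.node 3
    (.node 1
    (.leaf (.psd ⟨⟨⟨1024, 0, 0⟩, ⟨(-1055), 1, 0⟩, ⟨0, 0, 1⟩⟩, ⟨⟨1, 0, 0⟩, ⟨1055, 1024, 0⟩, ⟨0, 0, 1024⟩⟩, 1024, ⟨3, 4096, 1⟩⟩))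
    (.leaf (.psd ⟨⟨⟨1024, 0, 0⟩, ⟨(-598), 1, 0⟩, ⟨0, 0, 1⟩⟩, ⟨⟨1, 0, 0⟩, ⟨598, 1024, 0⟩, ⟨0, 0, 1024⟩⟩, 1024, ⟨5, 4096, 1⟩⟩)))
    (.node 1
    (.leaf (.psd ⟨⟨⟨1024, 0, 0⟩, ⟨(-972), 1, 0⟩, ⟨0, 0, 1⟩⟩, ⟨⟨1, 0, 0⟩, ⟨972, 1024, 0⟩, ⟨0, 0, 1024⟩⟩, 1024, ⟨4, 4096, 1⟩⟩))
    (.leaf (.psd ⟨⟨⟨1024, 0, 0⟩, ⟨(-565), 1, 0⟩, ⟨0, 0, 1⟩⟩, ⟨⟨1, 0, 0⟩, ⟨565, 1024, 0⟩, ⟨0, 0, 1024⟩⟩, 1024, ⟨1650, 1048576, 1⟩⟩)))))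
    (.node 0
    (.node 1
    (.node 3
    (.node 0
    (.leaf (.psd ⟨⟨⟨1024, 0, 0⟩, ⟨(-1029), 1, 0⟩, ⟨0, 0, 1⟩⟩, ⟨⟨1, 0, 0⟩, ⟨1029, 1024, 0⟩, ⟨0, 0, 1024⟩⟩, 1024, ⟨4, 4096, 1⟩⟩))
    (.leaf (.skip 6)))
    (.node 0
    (.leaf (.psd ⟨⟨⟨1024, 0, 0⟩, ⟨(-829), 1, 0⟩, ⟨0, 0, 1⟩⟩, ⟨⟨1, 0, 0⟩, ⟨829, 1024, 0⟩, ⟨0, 0, 1024⟩⟩, 1024, ⟨6, 4096, 1⟩⟩))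
    (.leaf (.skip 6))))
    (.leaf (.skip 6)))
    (.leaf (.skip 6)))))
    (.leaf (.skip 6)))
    (.leaf (.skip 6)))
    (.leaf (.skip 6)))
    (.node 0
    (.node 1
    (.node 0
    (.node 1
    (.node 3
    (.node 0
    (.node 1
    (.leaf (.psd ⟨⟨⟨1024, 0, 0⟩, ⟨(-1171), 1, 0⟩, ⟨0, 0, 1⟩⟩, ⟨⟨1, 0, 0⟩, ⟨1171, 1024, 0⟩, ⟨0, 0, 1024⟩⟩, 1024, ⟨4, 4096, 1⟩⟩))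
    (.leaf (.psd ⟨⟨⟨1024, 0, 0⟩, ⟨(-843), 1, 0⟩, ⟨0, 0, 1⟩⟩, ⟨⟨1, 0, 0⟩, ⟨843, 1024, 0⟩, ⟨0, 0, 1024⟩⟩, 1024, ⟨1488, 1048576, 1⟩⟩)))
    (.node 1
    (.leaf (.psd ⟨⟨⟨1024, 0, 0⟩, ⟨(-774), 1, 0⟩, ⟨0, 0, 1⟩⟩, ⟨⟨1, 0, 0⟩, ⟨774, 1024, 0⟩, ⟨0, 0, 1024⟩⟩, 1024, ⟨5, 4096, 1⟩⟩))
    (.node 0
    (.leaf (.psd ⟨⟨⟨1024, 0, 0⟩, ⟨(-552), 1, 0⟩, ⟨0, 0, 1⟩⟩, ⟨⟨1, 0, 0⟩, ⟨552, 1024, 0⟩, ⟨0, 0, 1024⟩⟩, 1024, ⟨8, 4096, 1⟩⟩))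
    (.leaf (.skip 6)))))
    (.node 0
    (.leaf (.psd ⟨⟨⟨1024, 0, 0⟩, ⟨(-741), 1, 0⟩, ⟨0, 0, 1⟩⟩, ⟨⟨1, 0, 0⟩, ⟨741, 1024, 0⟩, ⟨0, 0, 1024⟩⟩, 1024, ⟨1776, 1048576, 1⟩⟩))
    (.node 1
    (.leaf (.psd ⟨⟨⟨1024, 0, 0⟩, ⟨(-592), 1, 0⟩, ⟨0, 0, 1⟩⟩, ⟨⟨1, 0, 0⟩, ⟨592, 1024, 0⟩, ⟨0, 0, 1024⟩⟩, 1024, ⟨8, 4096, 1⟩⟩))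
    (.node 0
    (.leaf (.psd ⟨⟨⟨1024, 0, 0⟩, ⟨(-420), 1, 0⟩, ⟨0, 0, 1⟩⟩, ⟨⟨1, 0, 0⟩, ⟨420, 1024, 0⟩, ⟨0, 0, 1024⟩⟩, 1024, ⟨11, 4096, 1⟩⟩))
    (.leaf (.skip 6))))))
    (.node 0
    (.node 1
    (.node 3
    (.node 0
    (.leaf (.psd ⟨⟨⟨1024, 0, 0⟩, ⟨(-605), 1, 0⟩, ⟨0, 0, 1⟩⟩, ⟨⟨1, 0, 0⟩, ⟨605, 1024, 0⟩, ⟨0, 0, 1024⟩⟩, 1024, ⟨8, 4096, 1⟩⟩))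
    (.leaf (.skip 6)))
    (.node 0
    (.leaf (.psd ⟨⟨⟨1024, 0, 0⟩, ⟨(-443), 1, 0⟩, ⟨0, 0, 1⟩⟩, ⟨⟨1, 0, 0⟩, ⟨443, 1024, 0⟩, ⟨0, 0, 1024⟩⟩, 1024, ⟨11, 4096, 1⟩⟩))
    (.leaf (.skip 6))))
    (.leaf (.skip 6)))
    (.leaf (.skip 6))))
    (.leaf (.skip 6)))
    (.leaf (.skip 6)))
    (.leaf (.skip 6))))
    (.leaf (.skip 6)))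
    (.leaf (.skip 6)))
    (.node 1
    (.node 0
    (.node 0
    (.node 1
    (.node 0
    (.node 1
    (.node 0
    (.node 3
    (.node 1
    (.leaf (.psd ⟨⟨⟨1024, 0, 0⟩, ⟨(-589), 1, 0⟩, ⟨0, 0, 1⟩⟩, ⟨⟨1, 0, 0⟩, ⟨589, 1024, 0⟩, ⟨0, 0, 1024⟩⟩, 1024, ⟨8, 4096, 1⟩⟩))
    (.leaf (.psd ⟨⟨⟨1024, 0, 0⟩, ⟨(-425), 1, 0⟩, ⟨0, 0, 1⟩⟩, ⟨⟨1, 0, 0⟩, ⟨425, 1024, 0⟩, ⟨0, 0, 1024⟩⟩, 1024, ⟨11, 4096, 1⟩⟩)))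
    (.leaf (.psd ⟨⟨⟨1024, 0, 0⟩, ⟨(-353), 1, 0⟩, ⟨0, 0, 1⟩⟩, ⟨⟨1, 0, 0⟩, ⟨353, 1024, 0⟩, ⟨0, 0, 1024⟩⟩, 1024, ⟨13, 4096, 1⟩⟩)))
    (.node 3
    (.node 1
    (.leaf (.psd ⟨⟨⟨1024, 0, 0⟩, ⟨(-416), 1, 0⟩, ⟨0, 0, 1⟩⟩, ⟨⟨1, 0, 0⟩, ⟨416, 1024, 0⟩, ⟨0, 0, 1024⟩⟩, 1024, ⟨11, 4096, 1⟩⟩))
    (.node 0
    (.leaf (.psd ⟨⟨⟨1024, 0, 0⟩, ⟨(-295), 1, 0⟩, ⟨0, 0, 1⟩⟩, ⟨⟨1, 0, 0⟩, ⟨295, 1024, 0⟩, ⟨0, 0, 1024⟩⟩, 1024, ⟨15, 4096, 1⟩⟩))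
    (.leaf (.skip 6))))
    (.node 1
    (.leaf (.psd ⟨⟨⟨1024, 0, 0⟩, ⟨(-295), 1, 0⟩, ⟨0, 0, 1⟩⟩, ⟨⟨1, 0, 0⟩, ⟨295, 1024, 0⟩, ⟨0, 0, 1024⟩⟩, 1024, ⟨16, 4096, 1⟩⟩))
    (.leaf (.psd ⟨⟨⟨1024, 0, 0⟩, ⟨(-182), 1, 0⟩, ⟨0, 0, 1⟩⟩, ⟨⟨1, 0, 0⟩, ⟨182, 1024, 0⟩, ⟨0, 0, 1024⟩⟩, 1024, ⟨21, 4096, 1⟩⟩)))))
    (.node 0
    (.node 1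
    (.node 3
    (.node 0
    (.leaf (.psd ⟨⟨⟨1024, 0, 0⟩, ⟨(-304), 1, 0⟩, ⟨0, 0, 1⟩⟩, ⟨⟨1, 0, 0⟩, ⟨304, 1024, 0⟩, ⟨0, 0, 1024⟩⟩, 1024, ⟨15, 4096, 1⟩⟩))
    (.leaf (.skip 6)))
    (.leaf (.psd ⟨⟨⟨1024, 0, 0⟩, ⟨(-184), 1, 0⟩, ⟨0, 0, 1⟩⟩, ⟨⟨1, 0, 0⟩, ⟨184, 1024, 0⟩, ⟨0, 0, 1024⟩⟩, 1024, ⟨21, 4096, 1⟩⟩)))
    (.leaf (.skip 6)))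
    (.leaf (.skip 6))))
    (.leaf (.skip 6)))
    (.leaf (.skip 6)))
    (.leaf (.skip 6)))
    (.leaf (.skip 6)))
    (.leaf (.skip 6)))))
    (.node 1
    (.node 0
    (.node 0
    (.node 1
    (.node 3
    (.leaf (.psd ⟨⟨⟨1024, 0, 0⟩, ⟨(-1050), 1, 0⟩, ⟨0, 0, 1⟩⟩, ⟨⟨1, 0, 0⟩, ⟨1050, 1024, 0⟩, ⟨0, 0, 1024⟩⟩, 1024, ⟨1256, 1048576, 1⟩⟩))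
    (.leaf (.psd ⟨⟨⟨1024, 0, 0⟩, ⟨(-650), 1, 0⟩, ⟨0, 0, 1⟩⟩, ⟨⟨1, 0, 0⟩, ⟨650, 1024, 0⟩, ⟨0, 0, 1024⟩⟩, 1024, ⟨7, 4096, 1⟩⟩)))
    (.node 1
    (.node 0
    (.node 3
    (.leaf (.psd ⟨⟨⟨1024, 0, 0⟩, ⟨(-703), 1, 0⟩, ⟨0, 0, 1⟩⟩, ⟨⟨1, 0, 0⟩, ⟨703, 1024, 0⟩, ⟨0, 0, 1024⟩⟩, 1024, ⟨6, 4096, 1⟩⟩))
    (.leaf (.psd ⟨⟨⟨1024, 0, 0⟩, ⟨(-448), 1, 0⟩, ⟨0, 0, 1⟩⟩, ⟨⟨1, 0, 0⟩, ⟨448, 1024, 0⟩, ⟨0, 0, 1024⟩⟩, 1024, ⟨9, 4096, 1⟩⟩)))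
    (.node 3
    (.node 1
    (.leaf (.psd ⟨⟨⟨1024, 0, 0⟩, ⟨(-644), 1, 0⟩, ⟨0, 0, 1⟩⟩, ⟨⟨1, 0, 0⟩, ⟨644, 1024, 0⟩, ⟨0, 0, 1024⟩⟩, 1024, ⟨7, 4096, 1⟩⟩))
    (.leaf (.psd ⟨⟨⟨1024, 0, 0⟩, ⟨(-494), 1, 0⟩, ⟨0, 0, 1⟩⟩, ⟨⟨1, 0, 0⟩, ⟨494, 1024, 0⟩, ⟨0, 0, 1024⟩⟩, 1024, ⟨9, 4096, 1⟩⟩)))
    (.leaf (.psd ⟨⟨⟨1024, 0, 0⟩, ⟨(-372), 1, 0⟩, ⟨0, 0, 1⟩⟩, ⟨⟨1, 0, 0⟩, ⟨372, 1024, 0⟩, ⟨0, 0, 1024⟩⟩, 1024, ⟨12, 4096, 1⟩⟩))))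
    (.node 0
    (.node 3
    (.node 1
    (.leaf (.psd ⟨⟨⟨1024, 0, 0⟩, ⟨(-485), 1, 0⟩, ⟨0, 0, 1⟩⟩, ⟨⟨1, 0, 0⟩, ⟨485, 1024, 0⟩, ⟨0, 0, 1024⟩⟩, 1024, ⟨9, 4096, 1⟩⟩))
    (.leaf (.psd ⟨⟨⟨1024, 0, 0⟩, ⟨(-339), 1, 0⟩, ⟨0, 0, 1⟩⟩, ⟨⟨1, 0, 0⟩, ⟨339, 1024, 0⟩, ⟨0, 0, 1024⟩⟩, 1024, ⟨3241, 1048576, 1⟩⟩)))
    (.leaf (.psd ⟨⟨⟨1024, 0, 0⟩, ⟨(-266), 1, 0⟩, ⟨0, 0, 1⟩⟩, ⟨⟨1, 0, 0⟩, ⟨266, 1024, 0⟩, ⟨0, 0, 1024⟩⟩, 1024, ⟨14, 4096, 1⟩⟩)))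
    (.node 1
    (.leaf (.psd ⟨⟨⟨1, (-1946), 0⟩, ⟨0, 1024, 0⟩, ⟨0, 0, 1⟩⟩, ⟨⟨1024, 1946, 0⟩, ⟨0, 1, 0⟩, ⟨0, 0, 1024⟩⟩, 1024, ⟨1048576, 675, 1⟩⟩))
    (.leaf (.psd ⟨⟨⟨1, (-2791), 0⟩, ⟨0, 1024, 0⟩, ⟨0, 0, 1⟩⟩, ⟨⟨1024, 2791, 0⟩, ⟨0, 1, 0⟩, ⟨0, 0, 1024⟩⟩, 1024, ⟨4096, 2, 1⟩⟩))))))
    (.node 1
    (.node 0
    (.node 3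
    (.node 1
    (.leaf (.psd ⟨⟨⟨1024, 0, 0⟩, ⟨(-1025), 1, 0⟩, ⟨0, 0, 1⟩⟩, ⟨⟨1, 0, 0⟩, ⟨1025, 1024, 0⟩, ⟨0, 0, 1024⟩⟩, 1024, ⟨4, 4096, 1⟩⟩))
    (.leaf (.psd ⟨⟨⟨1024, 0, 0⟩, ⟨(-735), 1, 0⟩, ⟨0, 0, 1⟩⟩, ⟨⟨1, 0, 0⟩, ⟨735, 1024, 0⟩, ⟨0, 0, 1024⟩⟩, 1024, ⟨1727, 1048576, 1⟩⟩)))
    (.leaf (.psd ⟨⟨⟨1024, 0, 0⟩, ⟨(-567), 1, 0⟩, ⟨0, 0, 1⟩⟩, ⟨⟨1, 0, 0⟩, ⟨567, 1024, 0⟩, ⟨0, 0, 1024⟩⟩, 1024, ⟨10, 4096, 1⟩⟩)))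
    (.node 3
    (.node 1
    (.leaf (.psd ⟨⟨⟨1024, 0, 0⟩, ⟨(-904), 1, 0⟩, ⟨0, 0, 1⟩⟩, ⟨⟨1, 0, 0⟩, ⟨904, 1024, 0⟩, ⟨0, 0, 1024⟩⟩, 1024, ⟨5, 4096, 1⟩⟩))
    (.leaf (.skip 6)))
    (.node 1
    (.node 0
    (.leaf (.psd ⟨⟨⟨1024, 0, 0⟩, ⟨(-646), 1, 0⟩, ⟨0, 0, 1⟩⟩, ⟨⟨1, 0, 0⟩, ⟨646, 1024, 0⟩, ⟨0, 0, 1024⟩⟩, 1024, ⟨11, 4096, 1⟩⟩))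
    (.leaf (.skip 6)))
    (.leaf (.skip 6)))))
    (.node 1
    (.node 0
    (.node 3
    (.node 1
    (.leaf (.psd ⟨⟨⟨1024, 0, 0⟩, ⟨(-508), 1, 0⟩, ⟨0, 0, 1⟩⟩, ⟨⟨1, 0, 0⟩, ⟨508, 1024, 0⟩, ⟨0, 0, 1024⟩⟩, 1024, ⟨9, 4096, 1⟩⟩))
    (.leaf (.skip 6)))
    (.leaf (.psd ⟨⟨⟨1024, 0, 0⟩, ⟨(-301), 1, 0⟩, ⟨0, 0, 1⟩⟩, ⟨⟨1, 0, 0⟩, ⟨301, 1024, 0⟩, ⟨0, 0, 1024⟩⟩, 1024, ⟨15, 4096, 1⟩⟩)))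
    (.leaf (.skip 6)))
    (.leaf (.skip 6)))))
    (.leaf (.skip 6)))
    (.node 1
    (.node 0
    (.node 0
    (.node 1
    (.node 0
    (.node 1
    (.leaf (.psd ⟨⟨⟨1, (-2618), 0⟩, ⟨0, 1024, 0⟩, ⟨0, 0, 1⟩⟩, ⟨⟨1024, 2618, 0⟩, ⟨0, 1, 0⟩, ⟨0, 0, 1024⟩⟩, 1024, ⟨1048576, 495, 1⟩⟩))
    (.node 0
    (.node 1
    (.leaf (.psd ⟨⟨⟨1024, 0, 0⟩, ⟨(-93), 1, 0⟩, ⟨0, 0, 1⟩⟩, ⟨⟨1, 0, 0⟩, ⟨93, 1024, 0⟩, ⟨0, 0, 1024⟩⟩, 1024, ⟨19, 4096, 1⟩⟩))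
    (.leaf (.skip 6)))
    (.leaf (.skip 6))))
    (.leaf (.skip 6)))
    (.leaf (.skip 6)))
    (.leaf (.skip 6)))
    (.leaf (.skip 6)))
    (.leaf (.skip 6))))

theorem chunk1 : Check.Good ⟨false, false, false⟩ cfg (reach cfg base [(1, true), (3, false)]) :=
  Check.check_sound tree1 (by decide +kernel)

/-- A subtree. -/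
def tree2 : Check.Tree Check.Leaf :=
  .node 1
    (.node 0
    (.leaf (.psd ⟨⟨⟨1, 456, 0⟩, ⟨0, 1024, 0⟩, ⟨0, 0, 1⟩⟩, ⟨⟨1024, (-456), 0⟩, ⟨0, 1, 0⟩, ⟨0, 0, 1024⟩⟩, 1024, ⟨1048576, 738, 1⟩⟩))
    (.node 3
    (.node 1
    (.node 3
    (.node 0
    (.node 1
    (.node 0
    (.leaf (.psd ⟨⟨⟨1024, 0, 0⟩, ⟨43, 1, 0⟩, ⟨0, 0, 1⟩⟩, ⟨⟨1, 0, 0⟩, ⟨(-43), 1024, 0⟩, ⟨0, 0, 1024⟩⟩, 1024, ⟨9, 4096, 1⟩⟩))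
    (.leaf (.skip 6)))
    (.node 0
    (.node 0
    (.leaf (.psd ⟨⟨⟨1024, 0, 0⟩, ⟨121, 1, 0⟩, ⟨0, 0, 1⟩⟩, ⟨⟨1, 0, 0⟩, ⟨(-121), 1024, 0⟩, ⟨0, 0, 1024⟩⟩, 1024, ⟨10, 4096, 1⟩⟩))
    (.leaf (.skip 6)))
    (.leaf (.skip 6))))
    (.leaf (.skip 6)))
    (.node 0
    (.node 0
    (.node 1
    (.node 0
    (.leaf (.psd ⟨⟨⟨1024, 0, 0⟩, ⟨144, 1, 0⟩, ⟨0, 0, 1⟩⟩, ⟨⟨1, 0, 0⟩, ⟨(-144), 1024, 0⟩, ⟨0, 0, 1024⟩⟩, 1024, ⟨8, 4096, 1⟩⟩))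
    (.leaf (.skip 6)))
    (.node 0
    (.leaf (.psd ⟨⟨⟨1024, 0, 0⟩, ⟨193, 1, 0⟩, ⟨0, 0, 1⟩⟩, ⟨⟨1, 0, 0⟩, ⟨(-193), 1024, 0⟩, ⟨0, 0, 1024⟩⟩, 1024, ⟨14, 4096, 1⟩⟩))
    (.leaf (.skip 6))))
    (.leaf (.skip 6)))
    (.leaf (.skip 6))))
    (.node 3
    (.node 0
    (.node 0
    (.node 1
    (.node 0
    (.node 0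
    (.leaf (.psd ⟨⟨⟨1024, 0, 0⟩, ⟨188, 1, 0⟩, ⟨0, 0, 1⟩⟩, ⟨⟨1, 0, 0⟩, ⟨(-188), 1024, 0⟩, ⟨0, 0, 1024⟩⟩, 1024, ⟨15, 4096, 1⟩⟩))
    (.leaf (.skip 6)))
    (.leaf (.skip 6)))
    (.node 0
    (.node 0
    (.node 1
    (.leaf (.psd ⟨⟨⟨1024, 0, 0⟩, ⟨223, 1, 0⟩, ⟨0, 0, 1⟩⟩, ⟨⟨1, 0, 0⟩, ⟨(-223), 1024, 0⟩, ⟨0, 0, 1024⟩⟩, 1024, ⟨22, 4096, 1⟩⟩))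
    (.node 0
    (.leaf (.psd ⟨⟨⟨1024, 0, 0⟩, ⟨242, 1, 0⟩, ⟨0, 0, 1⟩⟩, ⟨⟨1, 0, 0⟩, ⟨(-242), 1024, 0⟩, ⟨0, 0, 1024⟩⟩, 1024, ⟨16, 4096, 1⟩⟩))
    (.node 1
    (.leaf (.psd ⟨⟨⟨1024, 0, 0⟩, ⟨223, 1, 0⟩, ⟨0, 0, 1⟩⟩, ⟨⟨1, 0, 0⟩, ⟨(-223), 1024, 0⟩, ⟨0, 0, 1024⟩⟩, 1024, ⟨67, 4096, 1⟩⟩))
    (.node 0
    (.leaf (.psd ⟨⟨⟨1024, 0, 0⟩, ⟨230, 1, 0⟩, ⟨0, 0, 1⟩⟩, ⟨⟨1, 0, 0⟩, ⟨(-230), 1024, 0⟩, ⟨0, 0, 1024⟩⟩, 1024, ⟨19, 4096, 1⟩⟩))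
    (.leaf (.skip 6))))))
    (.leaf (.skip 6)))
    (.leaf (.skip 6))))
    (.leaf (.skip 6)))
    (.leaf (.skip 6)))
    (.node 0
    (.node 0
    (.node 1
    (.node 0
    (.node 0
    (.leaf (.psd ⟨⟨⟨1024, 0, 0⟩, ⟨251, 1, 0⟩, ⟨0, 0, 1⟩⟩, ⟨⟨1, 0, 0⟩, ⟨(-251), 1024, 0⟩, ⟨0, 0, 1024⟩⟩, 1024, ⟨12, 4096, 1⟩⟩))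
    (.leaf (.skip 6)))
    (.leaf (.skip 6)))
    (.node 0
    (.node 0
    (.leaf (.psd ⟨⟨⟨1024, 0, 0⟩, ⟨242, 1, 0⟩, ⟨0, 0, 1⟩⟩, ⟨⟨1, 0, 0⟩, ⟨(-242), 1024, 0⟩, ⟨0, 0, 1024⟩⟩, 1024, ⟨9, 4096, 1⟩⟩))
    (.leaf (.skip 6)))
    (.leaf (.skip 6))))
    (.leaf (.skip 6)))
    (.leaf (.skip 6)))))
    (.node 3
    (.node 1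
    (.node 0
    (.node 0
    (.node 1
    (.node 0
    (.leaf (.psd ⟨⟨⟨1024, 0, 0⟩, ⟨207, 1, 0⟩, ⟨0, 0, 1⟩⟩, ⟨⟨1, 0, 0⟩, ⟨(-207), 1024, 0⟩, ⟨0, 0, 1024⟩⟩, 1024, ⟨9, 4096, 1⟩⟩))
    (.leaf (.skip 6)))
    (.node 0
    (.leaf (.psd ⟨⟨⟨1024, 0, 0⟩, ⟨211, 1, 0⟩, ⟨0, 0, 1⟩⟩, ⟨⟨1, 0, 0⟩, ⟨(-211), 1024, 0⟩, ⟨0, 0, 1024⟩⟩, 1024, ⟨11, 4096, 1⟩⟩))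
    (.leaf (.skip 6))))
    (.leaf (.skip 6)))
    (.leaf (.skip 6)))
    (.node 0
    (.node 0
    (.node 0
    (.node 1
    (.leaf (.psd ⟨⟨⟨1024, 0, 0⟩, ⟨174, 1, 0⟩, ⟨0, 0, 1⟩⟩, ⟨⟨1, 0, 0⟩, ⟨(-174), 1024, 0⟩, ⟨0, 0, 1024⟩⟩, 1024, ⟨10, 4096, 1⟩⟩))
    (.leaf (.psd ⟨⟨⟨1, 426, 0⟩, ⟨0, 1024, 0⟩, ⟨0, 0, 1⟩⟩, ⟨⟨1024, (-426), 0⟩, ⟨0, 1, 0⟩, ⟨0, 0, 1024⟩⟩, 1024, ⟨1048576, 197, 1⟩⟩)))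
    (.leaf (.skip 6)))
    (.leaf (.skip 6)))
    (.leaf (.skip 6))))
    (.node 0
    (.node 0
    (.node 1
    (.node 3
    (.node 0
    (.leaf (.psd ⟨⟨⟨1024, 0, 0⟩, ⟨146, 1, 0⟩, ⟨0, 0, 1⟩⟩, ⟨⟨1, 0, 0⟩, ⟨(-146), 1024, 0⟩, ⟨0, 0, 1024⟩⟩, 1024, ⟨10, 4096, 1⟩⟩))
    (.leaf (.skip 6)))
    (.node 3
    (.node 0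
    (.leaf (.psd ⟨⟨⟨1024, 0, 0⟩, ⟨87, 1, 0⟩, ⟨0, 0, 1⟩⟩, ⟨⟨1, 0, 0⟩, ⟨(-87), 1024, 0⟩, ⟨0, 0, 1024⟩⟩, 1024, ⟨10, 4096, 1⟩⟩))
    (.leaf (.skip 6)))
    (.node 0
    (.leaf (.psd ⟨⟨⟨1024, 0, 0⟩, ⟨87, 1, 0⟩, ⟨0, 0, 1⟩⟩, ⟨⟨1, 0, 0⟩, ⟨(-87), 1024, 0⟩, ⟨0, 0, 1024⟩⟩, 1024, ⟨10, 4096, 1⟩⟩))
    (.leaf (.skip 6)))))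
    (.node 3
    (.node 0
    (.leaf (.psd ⟨⟨⟨1024, 0, 0⟩, ⟨(-4), 1, 0⟩, ⟨0, 0, 1⟩⟩, ⟨⟨1, 0, 0⟩, ⟨4, 1024, 0⟩, ⟨0, 0, 1024⟩⟩, 1024, ⟨9, 4096, 1⟩⟩))
    (.leaf (.skip 6)))
    (.leaf (.psd ⟨⟨⟨1024, 0, 0⟩, ⟨(-34), 1, 0⟩, ⟨0, 0, 1⟩⟩, ⟨⟨1, 0, 0⟩, ⟨34, 1024, 0⟩, ⟨0, 0, 1024⟩⟩, 1024, ⟨19, 4096, 1⟩⟩))))
    (.leaf (.skip 6)))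
    (.leaf (.skip 6))))))
    (.node 0
    (.node 1
    (.leaf (.psd ⟨⟨⟨1024, 0, 0⟩, ⟨99, 1, 0⟩, ⟨0, 0, 1⟩⟩, ⟨⟨1, 0, 0⟩, ⟨(-99), 1024, 0⟩, ⟨0, 0, 1024⟩⟩, 1024, ⟨7, 4096, 1⟩⟩))
    (.node 3
    (.node 0
    (.leaf (.psd ⟨⟨⟨1024, 0, 0⟩, ⟨(-318), 1, 0⟩, ⟨0, 0, 1⟩⟩, ⟨⟨1, 0, 0⟩, ⟨318, 1024, 0⟩, ⟨0, 0, 1024⟩⟩, 1024, ⟨4, 4096, 1⟩⟩))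
    (.node 0
    (.leaf (.psd ⟨⟨⟨1024, 0, 0⟩, ⟨(-341), 1, 0⟩, ⟨0, 0, 1⟩⟩, ⟨⟨1, 0, 0⟩, ⟨341, 1024, 0⟩, ⟨0, 0, 1024⟩⟩, 1024, ⟨5, 4096, 1⟩⟩))
    (.node 1
    (.leaf (.psd ⟨⟨⟨1024, 0, 0⟩, ⟨(-340), 1, 0⟩, ⟨0, 0, 1⟩⟩, ⟨⟨1, 0, 0⟩, ⟨340, 1024, 0⟩, ⟨0, 0, 1024⟩⟩, 1024, ⟨10, 4096, 1⟩⟩))
    (.node 0
    (.leaf (.psd ⟨⟨⟨1024, 0, 0⟩, ⟨(-444), 1, 0⟩, ⟨0, 0, 1⟩⟩, ⟨⟨1, 0, 0⟩, ⟨444, 1024, 0⟩, ⟨0, 0, 1024⟩⟩, 1024, ⟨8, 4096, 1⟩⟩))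
    (.node 3
    (.node 1
    (.node 0
    (.leaf (.psd ⟨⟨⟨1024, 0, 0⟩, ⟨(-544), 1, 0⟩, ⟨0, 0, 1⟩⟩, ⟨⟨1, 0, 0⟩, ⟨544, 1024, 0⟩, ⟨0, 0, 1024⟩⟩, 1024, ⟨7, 4096, 1⟩⟩))
    (.leaf (.skip 6)))
    (.leaf (.skip 6)))
    (.node 1
    (.node 0
    (.leaf (.psd ⟨⟨⟨1024, 0, 0⟩, ⟨(-421), 1, 0⟩, ⟨0, 0, 1⟩⟩, ⟨⟨1, 0, 0⟩, ⟨421, 1024, 0⟩, ⟨0, 0, 1024⟩⟩, 1024, ⟨12, 4096, 1⟩⟩))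
    (.leaf (.skip 6)))
    (.leaf (.skip 6))))))))
    (.node 3
    (.node 0
    (.leaf (.psd ⟨⟨⟨1024, 0, 0⟩, ⟨(-156), 1, 0⟩, ⟨0, 0, 1⟩⟩, ⟨⟨1, 0, 0⟩, ⟨156, 1024, 0⟩, ⟨0, 0, 1024⟩⟩, 1024, ⟨6, 4096, 1⟩⟩))
    (.node 0
    (.leaf (.psd ⟨⟨⟨1024, 0, 0⟩, ⟨(-224), 1, 0⟩, ⟨0, 0, 1⟩⟩, ⟨⟨1, 0, 0⟩, ⟨224, 1024, 0⟩, ⟨0, 0, 1024⟩⟩, 1024, ⟨8, 4096, 1⟩⟩))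
    (.node 1
    (.leaf (.psd ⟨⟨⟨1024, 0, 0⟩, ⟨(-276), 1, 0⟩, ⟨0, 0, 1⟩⟩, ⟨⟨1, 0, 0⟩, ⟨276, 1024, 0⟩, ⟨0, 0, 1024⟩⟩, 1024, ⟨15, 4096, 1⟩⟩))
    (.node 0
    (.leaf (.psd ⟨⟨⟨1024, 0, 0⟩, ⟨(-304), 1, 0⟩, ⟨0, 0, 1⟩⟩, ⟨⟨1, 0, 0⟩, ⟨304, 1024, 0⟩, ⟨0, 0, 1024⟩⟩, 1024, ⟨11, 4096, 1⟩⟩))
    (.node 3
    (.node 1
    (.leaf (.psd ⟨⟨⟨1024, 0, 0⟩, ⟨(-367), 1, 0⟩, ⟨0, 0, 1⟩⟩, ⟨⟨1, 0, 0⟩, ⟨367, 1024, 0⟩, ⟨0, 0, 1024⟩⟩, 1024, ⟨36, 4096, 1⟩⟩))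
    (.leaf (.skip 6)))
    (.leaf (.psd ⟨⟨⟨1024, 0, 0⟩, ⟨(-326), 1, 0⟩, ⟨0, 0, 1⟩⟩, ⟨⟨1, 0, 0⟩, ⟨326, 1024, 0⟩, ⟨0, 0, 1024⟩⟩, 1024, ⟨26, 4096, 1⟩⟩)))))))
    (.leaf (.psd ⟨⟨⟨1024, 0, 0⟩, ⟨(-92), 1, 0⟩, ⟨0, 0, 1⟩⟩, ⟨⟨1, 0, 0⟩, ⟨92, 1024, 0⟩, ⟨0, 0, 1024⟩⟩, 1024, ⟨9, 4096, 1⟩⟩)))))
    (.node 3
    (.node 1
    (.node 0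
    (.node 0
    (.node 1
    (.node 3
    (.node 0
    (.node 0
    (.leaf (.psd ⟨⟨⟨1, 1266, 0⟩, ⟨0, 1024, 0⟩, ⟨0, 0, 1⟩⟩, ⟨⟨1024, (-1266), 0⟩, ⟨0, 1, 0⟩, ⟨0, 0, 1024⟩⟩, 1024, ⟨1048576, 318, 1⟩⟩))
    (.leaf (.skip 6)))
    (.leaf (.skip 6)))
    (.node 0
    (.node 0
    (.leaf (.psd ⟨⟨⟨1024, 0, 0⟩, ⟨120, 1, 0⟩, ⟨0, 0, 1⟩⟩, ⟨⟨1, 0, 0⟩, ⟨(-120), 1024, 0⟩, ⟨0, 0, 1024⟩⟩, 1024, ⟨15, 4096, 1⟩⟩))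
    (.leaf (.skip 6)))
    (.leaf (.skip 6))))
    (.leaf (.skip 6)))
    (.leaf (.skip 6)))
    (.leaf (.skip 6)))
    (.leaf (.skip 6)))
    (.node 3
    (.node 1
    (.node 0
    (.node 0
    (.node 0
    (.node 1
    (.leaf (.psd ⟨⟨⟨1024, 0, 0⟩, ⟨(-74), 1, 0⟩, ⟨0, 0, 1⟩⟩, ⟨⟨1, 0, 0⟩, ⟨74, 1024, 0⟩, ⟨0, 0, 1024⟩⟩, 1024, ⟨16, 4096, 1⟩⟩))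
    (.leaf (.skip 6)))
    (.leaf (.skip 6)))
    (.leaf (.skip 6)))
    (.leaf (.skip 6)))
    (.leaf (.skip 6)))
    (.node 0
    (.node 3
    (.node 1
    (.node 0
    (.node 0
    (.leaf (.psd ⟨⟨⟨1024, 0, 0⟩, ⟨(-190), 1, 0⟩, ⟨0, 0, 1⟩⟩, ⟨⟨1, 0, 0⟩, ⟨190, 1024, 0⟩, ⟨0, 0, 1024⟩⟩, 1024, ⟨18, 4096, 1⟩⟩))
    (.leaf (.skip 6)))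
    (.leaf (.skip 6)))
    (.leaf (.skip 6)))
    (.node 0
    (.node 3
    (.node 1
    (.node 0
    (.leaf (.psd ⟨⟨⟨1024, 0, 0⟩, ⟨(-155), 1, 0⟩, ⟨0, 0, 1⟩⟩, ⟨⟨1, 0, 0⟩, ⟨155, 1024, 0⟩, ⟨0, 0, 1024⟩⟩, 1024, ⟨12, 4096, 1⟩⟩))
    (.leaf (.skip 6)))
    (.leaf (.skip 6)))
    (.node 1
    (.leaf (.psd ⟨⟨⟨1024, 0, 0⟩, ⟨(-86), 1, 0⟩, ⟨0, 0, 1⟩⟩, ⟨⟨1, 0, 0⟩, ⟨86, 1024, 0⟩, ⟨0, 0, 1024⟩⟩, 1024, ⟨19, 4096, 1⟩⟩))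
    (.leaf (.skip 6))))
    (.leaf (.skip 6))))
    (.leaf (.skip 6))))))

theorem chunk2 : Check.Good ⟨false, false, false⟩ cfg (reach cfg base [(1, false), (3, true)]) :=
  Check.check_sound tree2 (by decide +kernel)

/-- A subtree. -/
def tree3 : Check.Tree Check.Leaf :=
  .node 1
    (.node 0
    (.node 3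
    (.node 1
    (.node 0
    (.leaf (.psd ⟨⟨⟨1024, 0, 0⟩, ⟨(-362), 1, 0⟩, ⟨0, 0, 1⟩⟩, ⟨⟨1, 0, 0⟩, ⟨362, 1024, 0⟩, ⟨0, 0, 1024⟩⟩, 1024, ⟨8, 4096, 1⟩⟩))
    (.node 0
    (.leaf (.psd ⟨⟨⟨1024, 0, 0⟩, ⟨(-348), 1, 0⟩, ⟨0, 0, 1⟩⟩, ⟨⟨1, 0, 0⟩, ⟨348, 1024, 0⟩, ⟨0, 0, 1024⟩⟩, 1024, ⟨12, 4096, 1⟩⟩))
    (.node 1
    (.node 3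
    (.node 0
    (.leaf (.psd ⟨⟨⟨1024, 0, 0⟩, ⟨(-472), 1, 0⟩, ⟨0, 0, 1⟩⟩, ⟨⟨1, 0, 0⟩, ⟨472, 1024, 0⟩, ⟨0, 0, 1024⟩⟩, 1024, ⟨17, 4096, 1⟩⟩))
    (.leaf (.skip 6)))
    (.node 0
    (.leaf (.psd ⟨⟨⟨1024, 0, 0⟩, ⟨(-364), 1, 0⟩, ⟨0, 0, 1⟩⟩, ⟨⟨1, 0, 0⟩, ⟨364, 1024, 0⟩, ⟨0, 0, 1024⟩⟩, 1024, ⟨14, 4096, 1⟩⟩))
    (.leaf (.skip 6))))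
    (.leaf (.skip 6)))))
    (.node 0
    (.leaf (.psd ⟨⟨⟨1, (-1421), 0⟩, ⟨0, 1024, 0⟩, ⟨0, 0, 1⟩⟩, ⟨⟨1024, 1421, 0⟩, ⟨0, 1, 0⟩, ⟨0, 0, 1024⟩⟩, 1024, ⟨1048576, 444, 1⟩⟩))
    (.node 1
    (.node 0
    (.leaf (.psd ⟨⟨⟨1024, 0, 0⟩, ⟨(-200), 1, 0⟩, ⟨0, 0, 1⟩⟩, ⟨⟨1, 0, 0⟩, ⟨200, 1024, 0⟩, ⟨0, 0, 1024⟩⟩, 1024, ⟨16, 4096, 1⟩⟩))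
    (.leaf (.skip 6)))
    (.leaf (.skip 6)))))
    (.node 1
    (.node 3
    (.node 0
    (.leaf (.psd ⟨⟨⟨1024, 0, 0⟩, ⟨(-199), 1, 0⟩, ⟨0, 0, 1⟩⟩, ⟨⟨1, 0, 0⟩, ⟨199, 1024, 0⟩, ⟨0, 0, 1024⟩⟩, 1024, ⟨7, 4096, 1⟩⟩))
    (.node 0
    (.leaf (.psd ⟨⟨⟨1024, 0, 0⟩, ⟨(-232), 1, 0⟩, ⟨0, 0, 1⟩⟩, ⟨⟨1, 0, 0⟩, ⟨232, 1024, 0⟩, ⟨0, 0, 1024⟩⟩, 1024, ⟨10, 4096, 1⟩⟩))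
    (.node 1
    (.node 0
    (.leaf (.psd ⟨⟨⟨1024, 0, 0⟩, ⟨(-291), 1, 0⟩, ⟨0, 0, 1⟩⟩, ⟨⟨1, 0, 0⟩, ⟨291, 1024, 0⟩, ⟨0, 0, 1024⟩⟩, 1024, ⟨13, 4096, 1⟩⟩))
    (.leaf (.skip 6)))
    (.leaf (.skip 6)))))
    (.node 0
    (.leaf (.psd ⟨⟨⟨1024, 0, 0⟩, ⟨(-77), 1, 0⟩, ⟨0, 0, 1⟩⟩, ⟨⟨1, 0, 0⟩, ⟨77, 1024, 0⟩, ⟨0, 0, 1024⟩⟩, 1024, ⟨4, 4096, 1⟩⟩))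
    (.leaf (.psd ⟨⟨⟨1024, 0, 0⟩, ⟨(-183), 1, 0⟩, ⟨0, 0, 1⟩⟩, ⟨⟨1, 0, 0⟩, ⟨183, 1024, 0⟩, ⟨0, 0, 1024⟩⟩, 1024, ⟨12, 4096, 1⟩⟩))))
    (.node 3
    (.node 0
    (.leaf (.psd ⟨⟨⟨1024, 0, 0⟩, ⟨(-104), 1, 0⟩, ⟨0, 0, 1⟩⟩, ⟨⟨1, 0, 0⟩, ⟨104, 1024, 0⟩, ⟨0, 0, 1024⟩⟩, 1024, ⟨16, 4096, 1⟩⟩))
    (.node 1
    (.node 0
    (.leaf (.psd ⟨⟨⟨1024, 0, 0⟩, ⟨(-143), 1, 0⟩, ⟨0, 0, 1⟩⟩, ⟨⟨1, 0, 0⟩, ⟨143, 1024, 0⟩, ⟨0, 0, 1024⟩⟩, 1024, ⟨16, 4096, 1⟩⟩))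
    (.leaf (.skip 6)))
    (.leaf (.skip 6))))
    (.node 0
    (.leaf (.psd ⟨⟨⟨1024, 0, 0⟩, ⟨(-47), 1, 0⟩, ⟨0, 0, 1⟩⟩, ⟨⟨1, 0, 0⟩, ⟨47, 1024, 0⟩, ⟨0, 0, 1024⟩⟩, 1024, ⟨4, 4096, 1⟩⟩))
    (.node 3
    (.node 1
    (.leaf (.psd ⟨⟨⟨1024, 0, 0⟩, ⟨(-141), 1, 0⟩, ⟨0, 0, 1⟩⟩, ⟨⟨1, 0, 0⟩, ⟨141, 1024, 0⟩, ⟨0, 0, 1024⟩⟩, 1024, ⟨25, 4096, 1⟩⟩))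
    (.leaf (.skip 6)))
    (.node 0
    (.node 3
    (.leaf (.psd ⟨⟨⟨1024, 0, 0⟩, ⟨(-98), 1, 0⟩, ⟨0, 0, 1⟩⟩, ⟨⟨1, 0, 0⟩, ⟨98, 1024, 0⟩, ⟨0, 0, 1024⟩⟩, 1024, ⟨9, 4096, 1⟩⟩))
    (.node 1
    (.leaf (.psd ⟨⟨⟨1024, 0, 0⟩, ⟨(-106), 1, 0⟩, ⟨0, 0, 1⟩⟩, ⟨⟨1, 0, 0⟩, ⟨106, 1024, 0⟩, ⟨0, 0, 1024⟩⟩, 1024, ⟨3, 4096, 1⟩⟩))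
    (.leaf (.skip 6))))
    (.leaf (.skip 6))))))))
    (.leaf (.skip 6)))
    (.node 3
    (.node 0
    (.node 1
    (.node 0
    (.node 1
    (.node 0
    (.leaf (.psd ⟨⟨⟨1024, 0, 0⟩, ⟨(-40), 1, 0⟩, ⟨0, 0, 1⟩⟩, ⟨⟨1, 0, 0⟩, ⟨40, 1024, 0⟩, ⟨0, 0, 1024⟩⟩, 1024, ⟨26, 4096, 1⟩⟩))
    (.leaf (.skip 6)))
    (.leaf (.skip 6)))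
    (.leaf (.skip 6)))
    (.leaf (.skip 6)))
    (.leaf (.skip 6)))
    (.node 3
    (.node 0
    (.node 1
    (.node 0
    (.node 1
    (.leaf (.psd ⟨⟨⟨1024, 0, 0⟩, ⟨2, 1, 0⟩, ⟨0, 0, 1⟩⟩, ⟨⟨1, 0, 0⟩, ⟨(-2), 1024, 0⟩, ⟨0, 0, 1024⟩⟩, 1024, ⟨28, 4096, 1⟩⟩))
    (.leaf (.skip 6)))
    (.leaf (.skip 6)))
    (.leaf (.skip 6)))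
    (.leaf (.skip 6)))
    (.node 3
    (.node 0
    (.node 1
    (.node 0
    (.leaf (.psd ⟨⟨⟨1024, 0, 0⟩, ⟨48, 1, 0⟩, ⟨0, 0, 1⟩⟩, ⟨⟨1, 0, 0⟩, ⟨(-48), 1024, 0⟩, ⟨0, 0, 1024⟩⟩, 1024, ⟨42, 4096, 1⟩⟩))
    (.leaf (.skip 6)))
    (.leaf (.skip 6)))
    (.leaf (.skip 6)))
    (.node 0
    (.node 1
    (.node 0
    (.node 3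
    (.leaf (.psd ⟨⟨⟨1024, 0, 0⟩, ⟨43, 1, 0⟩, ⟨0, 0, 1⟩⟩, ⟨⟨1, 0, 0⟩, ⟨(-43), 1024, 0⟩, ⟨0, 0, 1024⟩⟩, 1024, ⟨14, 4096, 1⟩⟩))
    (.node 1
    (.node 0
    (.leaf (.psd ⟨⟨⟨1024, 0, 0⟩, ⟨21, 1, 0⟩, ⟨0, 0, 1⟩⟩, ⟨⟨1, 0, 0⟩, ⟨(-21), 1024, 0⟩, ⟨0, 0, 1024⟩⟩, 1024, ⟨1, 4096, 1⟩⟩))
    (.leaf (.skip 6)))
    (.leaf (.skip 6))))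
    (.leaf (.skip 6)))
    (.leaf (.skip 6)))
    (.leaf (.skip 6))))))

theorem chunk3 : Check.Good ⟨false, false, false⟩ cfg (reach cfg base [(1, true), (3, true)]) :=
  Check.check_sound tree3 (by decide +kernel)

end Vale.Agent.P211.Cert.Pair.PairOuterH
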